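import Vale.Agent.P157.Phase
import Vale.Agent.P157.Teach.Annealed
import Vale.Agent.P157.Gen.Threshold

open MeasureTheory ProbabilityTheory Real Filter
open scoped Topology

namespace Vale.Agent.Results.P157.AnnealedPhase
open Vale.Agent.P157

lemma threshold {f : ℝ → ℝ} {B : ℝ} (hf : Measurable f) (hB : ∀ s, |f s| ≤ B) {U Ψ J : ℝ → ℝ}
    (hU : ∀ x, U x = Real.exp (f x) / ∫ s, Real.exp (f s) ∂gaussianReal 0 1)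
    (hΨ : ∀ q, Ψ q = ∫ z, (∫ ξ, U (√q * z + √(1 - q) * ξ) ∂gaussianReal 0 1) *
      Real.log (∫ ξ, U (√q * z + √(1 - q) * ξ) ∂gaussianReal 0 1) ∂gaussianReal 0 1)
    (hJ : ∀ r, J r = ∫ z, (Real.exp (-(r / 2)) * Real.cosh (√r * z)) *
      Real.log (Real.exp (-(r / 2)) * Real.cosh (√r * z)) ∂gaussianReal 0 1)
    {α : ℝ} (hα : 0 < α) :
    (Tendsto (fun N : ℕ => pressure (isingUniform N) f ⌊α * N⌋₊) atTop
        (𝓝 (α * Real.log (∫ s, Real.exp (f s) ∂gaussianReal 0 1))) ↔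
      ∀ r : ℝ, 0 ≤ r → ∃ q ∈ Set.Icc (0:ℝ) 1, α * Ψ q + J r ≤ r * q / 2) ∧
    ((∃ r : ℝ, 0 ≤ r ∧ ∀ q ∈ Set.Icc (0:ℝ) 1, r * q / 2 < α * Ψ q + J r) →
      ∃ δ : ℝ, 0 < δ ∧ ∀ᶠ N : ℕ in atTop, pressure (isingUniform N) f ⌊α * N⌋₊ ≤
        α * Real.log (∫ s, Real.exp (f s) ∂gaussianReal 0 1) - δ) := by
  obtain ⟨h1, h2⟩ := Teach.annealed_threshold hf hB hα
  have eU : U = Teach.wgt f := funext fun x => by
    rw [hU, Teach.wgt, Real.exp_sub, exp_ann hf hB]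
  subst eU
  obtain rfl : Ψ = Teach.Psi (Teach.wgt f) := funext hΨ
  obtain rfl : J = Teach.I0 := funext hJ
  refine ⟨h1, fun ⟨r, hr, hq⟩ => h2 fun hc => ?_⟩
  obtain ⟨q, hq1, hq2⟩ := hc r hr
  linarith [hq q hq1]

lemma threshold_sphere {f : ℝ → ℝ} {B : ℝ} (hf : Measurable f) (hB : ∀ s, |f s| ≤ B) {U Ψ : ℝ → ℝ}
    (hU : ∀ x, U x = Real.exp (f x) / ∫ s, Real.exp (f s) ∂gaussianReal 0 1)
    (hΨ : ∀ q, Ψ q = ∫ z, (∫ ξ, U (√q * z + √(1 - q) * ξ) ∂gaussianReal 0 1) *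
      Real.log (∫ ξ, U (√q * z + √(1 - q) * ξ) ∂gaussianReal 0 1) ∂gaussianReal 0 1)
    {α : ℝ} (hα : 0 < α) :
    (Tendsto (fun N : ℕ => pressure (sphereUniform N) f ⌊α * N⌋₊) atTop
        (𝓝 (α * Real.log (∫ s, Real.exp (f s) ∂gaussianReal 0 1))) ↔
      ∀ q ∈ Set.Ico (0:ℝ) 1, 2 * α * Ψ q + q + Real.log (1 - q) ≤ 0) ∧
    ((∃ q ∈ Set.Ico (0:ℝ) 1, 0 < 2 * α * Ψ q + q + Real.log (1 - q)) →
      ∃ δ : ℝ, 0 < δ ∧ ∀ᶠ N : ℕ in atTop, pressure (sphereUniform N) f ⌊α * N⌋₊ ≤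
        α * Real.log (∫ s, Real.exp (f s) ∂gaussianReal 0 1) - δ) := by
  obtain ⟨h1, h2⟩ := Gen.sphere_threshold hf hB hα
  have eU : U = Teach.wgt f := funext fun x => by
    rw [hU, Teach.wgt, Real.exp_sub, exp_ann hf hB]
  subst eU
  obtain rfl : Ψ = Teach.Psi (Teach.wgt f) := funext hΨ
  have e : Gen.SCrit (Teach.wgt f) α ↔
      ∀ q ∈ Set.Ico (0:ℝ) 1, 2 * α * Teach.Psi (Teach.wgt f) q + q + Real.log (1 - q) ≤ 0 :=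
    forall₂_congr fun q _ => by rw [Gen.G0]; constructor <;> intro h <;> linarith
  refine ⟨h1.trans e, fun ⟨q, hq, hpos⟩ => h2 fun hc => ?_⟩
  linarith [e.1 hc q hq]

theorem result :
    (∀ f : ℝ → ℝ, Measurable f → (∃ B : ℝ, ∀ s, |f s| ≤ B) →
      ∀ U Ψ J : ℝ → ℝ,
        (∀ x, U x = Real.exp (f x) / ∫ s, Real.exp (f s) ∂gaussianReal 0 1) →
        (∀ q, Ψ q = ∫ z, (∫ ξ, U (√q * z + √(1 - q) * ξ) ∂gaussianReal 0 1) *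
          Real.log (∫ ξ, U (√q * z + √(1 - q) * ξ) ∂gaussianReal 0 1) ∂gaussianReal 0 1) →
        (∀ r, J r = ∫ z, (Real.exp (-(r / 2)) * Real.cosh (√r * z)) *
          Real.log (Real.exp (-(r / 2)) * Real.cosh (√r * z)) ∂gaussianReal 0 1) →
        ∀ α : ℝ, 0 < α →
          ((Tendsto (fun N : ℕ => pressure (isingUniform N) f ⌊α * N⌋₊) atTop
              (𝓝 (α * Real.log (∫ s, Real.exp (f s) ∂gaussianReal 0 1))) ↔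
            ∀ r : ℝ, 0 ≤ r → ∃ q ∈ Set.Icc (0:ℝ) 1, α * Ψ q + J r ≤ r * q / 2) ∧
          ((∃ r : ℝ, 0 ≤ r ∧ ∀ q ∈ Set.Icc (0:ℝ) 1, r * q / 2 < α * Ψ q + J r) →
            ∃ δ : ℝ, 0 < δ ∧ ∀ᶠ N : ℕ in atTop, pressure (isingUniform N) f ⌊α * N⌋₊ ≤
              α * Real.log (∫ s, Real.exp (f s) ∂gaussianReal 0 1) - δ)) ∧
          ((Tendsto (fun N : ℕ => pressure (sphereUniform N) f ⌊α * N⌋₊) atTop
              (𝓝 (α * Real.log (∫ s, Real.exp (f s) ∂gaussianReal 0 1))) ↔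
            ∀ q ∈ Set.Ico (0:ℝ) 1, 2 * α * Ψ q + q + Real.log (1 - q) ≤ 0) ∧
          ((∃ q ∈ Set.Ico (0:ℝ) 1, 0 < 2 * α * Ψ q + q + Real.log (1 - q)) →
            ∃ δ : ℝ, 0 < δ ∧ ∀ᶠ N : ℕ in atTop, pressure (sphereUniform N) f ⌊α * N⌋₊ ≤
              α * Real.log (∫ s, Real.exp (f s) ∂gaussianReal 0 1) - δ))) ∧
    ∃ c₀ : ℝ, 0 < c₀ ∧
      ∀ μ : ∀ N, Measure (Vec N), (μ = isingUniform ∨ μ = sphereUniform) →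
      ∀ f : ℝ → ℝ, Measurable f → (∃ B : ℝ, ∀ s, |f s| ≤ B) →
        (∀ ε : ℝ, 0 < ε → ∃ α₀ : ℝ, 0 < α₀ ∧ ∀ α : ℝ, α ≥ α₀ → ∀ᶠ N : ℕ in atTop,
          |pressure (μ N) f ⌊α * N⌋₊ - α * ∫ s, f s ∂gaussianReal 0 1| ≤ ε * α) ∧
        (∫ s, s * Real.exp (f s) ∂gaussianReal 0 1 ≠ 0 → ∀ α : ℝ, 0 < α → ∃ δ : ℝ, 0 < δ ∧
          ∀ᶠ N : ℕ in atTop, pressure (μ N) f ⌊α * N⌋₊ ≤
            α * Real.log (∫ s, Real.exp (f s) ∂gaussianReal 0 1) - δ) ∧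
        ((¬ ∃ c : ℝ, f =ᵐ[gaussianReal 0 1] fun _ => c) → ∃ αc : ℝ, 0 ≤ αc ∧
          (∀ α : ℝ, 0 < α →
            (Tendsto (fun N : ℕ => pressure (μ N) f ⌊α * N⌋₊) atTop
              (𝓝 (α * Real.log (∫ s, Real.exp (f s) ∂gaussianReal 0 1))) ↔ α ≤ αc)) ∧
          (0 < αc ↔ ∫ s, s * Real.exp (f s) ∂gaussianReal 0 1 = 0) ∧
          (∫ s, s * Real.exp (f s) ∂gaussianReal 0 1 = 0 →
            ∀ r : ℝ, (∀ s t, f s - f t ≤ r) → c₀ / (Real.exp r - 1) ^ 2 ≤ αc)) := by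
  refine ⟨fun f hf ⟨B, hB⟩ U Ψ J hU hΨ hJ α hα =>
      ⟨threshold hf hB hU hΨ hJ hα, threshold_sphere hf hB hU hΨ hα⟩,
    1 / (8 * Cpair), by have := Cpair_pos; positivity, fun μ h f hf ⟨B, hB⟩ => ?_⟩
  exact ⟨fun ε hε => large_density (spaces_good h).1 hf hB hε,
    fun h1 α hα => tilt_strict (spaces_good h).1 hf hB h1 hα,
    fun hnc => phase h hf hB hnc⟩

end Vale.Agent.Results.P157.AnnealedPhase
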