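import Vale.Agent.P157.Exact.Threshold

open MeasureTheory ProbabilityTheory Real Filter
open scoped Topology

namespace Vale.Agent.Results.P157.ExactThreshold
open Vale.Agent.P157

theorem result :
    ∀ (μ : ∀ N, Measure (Vec N)) (r : ℝ),
      (μ = isingUniform ∧ r = 1/12) ∨ (μ = sphereUniform ∧ r = 1/4) →
    (∀ f : ℝ → ℝ, Measurable f → (∃ B : ℝ, ∀ s, |f s| ≤ B) →
      (∀ α : ℝ, 0 < α →
        1 < α * ((∫ s, (s ^ 2 - 1) * Real.exp (f s) ∂gaussianReal 0 1) /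
              ∫ s, Real.exp (f s) ∂gaussianReal 0 1) ^ 2 →
        ∃ δ : ℝ, 0 < δ ∧ ∀ᶠ N : ℕ in atTop, pressure (μ N) f ⌊α * N⌋₊ ≤
          α * Real.log (∫ s, Real.exp (f s) ∂gaussianReal 0 1) - δ) ∧
      (∫ s, s * Real.exp (f s) ∂gaussianReal 0 1 = 0 → ∀ α : ℝ, 0 < α →
        2 * α * ((∫ s, Real.exp (2 * f s) ∂gaussianReal 0 1) /
              (∫ s, Real.exp (f s) ∂gaussianReal 0 1) ^ 2 - 1) ≤ 1 →
        Tendsto (fun N : ℕ => pressure (μ N) f ⌊α * N⌋₊) atTop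
          (𝓝 (α * Real.log (∫ s, Real.exp (f s) ∂gaussianReal 0 1)))) ∧
      (∫ s, s * Real.exp (f s) ∂gaussianReal 0 1 = 0 →
        ∫ s, (s ^ 3 - 3 * s) * Real.exp (f s) ∂gaussianReal 0 1 = 0 →
        ∀ θ : ℝ, θ = (∫ s, (s ^ 2 - 1) * Real.exp (f s) ∂gaussianReal 0 1) /
              ∫ s, Real.exp (f s) ∂gaussianReal 0 1 →
        θ ≠ 0 →
        (∫ s, Real.exp (2 * f s) ∂gaussianReal 0 1) /
              (∫ s, Real.exp (f s) ∂gaussianReal 0 1) ^ 2 - 1 - θ ^ 2 / 2 ≤ r * θ ^ 2 →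
        ∀ α : ℝ, 0 < α →
          (Tendsto (fun N : ℕ => pressure (μ N) f ⌊α * N⌋₊) atTop
              (𝓝 (α * Real.log (∫ s, Real.exp (f s) ∂gaussianReal 0 1))) ↔ α * θ ^ 2 ≤ 1))) ∧
    (∀ k : ℝ, -1 < k → ∀ α : ℝ, 0 < α →
      (Tendsto (fun N : ℕ =>
          pressure (μ N) (fun s => Real.log (1 + k * Real.exp (-(s ^ 2 / 4)))) ⌊α * N⌋₊) atTop
          (𝓝 (α * Real.log (1 + k * √(2/3)))) ↔ 2 * α * k ^ 2 ≤ 27 * (1 + k * √(2/3)) ^ 2)) := by
  intro μ r h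
  constructor
  · intro f hf ⟨B, hB⟩
    have hm := (exp_ann hf hB).symm
    simp only [hm, Real.log_exp,
      Exact.theta_eq hf hB]
    refine ⟨fun α hα hθ => Exact.spike_strict (spaces_good (Exact.Space.mem h)).1 hf hB hα hθ,
      fun h1 α hα hs => Exact.annealed_two h hf hB h1 hα hs,
      fun h1 h3 θ hθ hne ht α hα => ?_⟩
    subst hθ
    exact Exact.annealed_iff h hf hB h1 h3 hne (by simpa [Exact.excessVar] using ht) hα
  · intro k hk α hα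
    obtain ⟨hm, ⟨B, hB⟩, hA, h1, h3, hθ, he⟩ := Exact.bump_facts hk
    have hm0 : 0 < 1 + k * √(2/3) := by rw [← hA]; exact exp_pos _
    rw [← hA, Real.log_exp]
    show Tendsto (fun N : ℕ => pressure (μ N) (Exact.bump k) ⌊α * N⌋₊) atTop (𝓝 (α * ann (Exact.bump k))) ↔ _
    rcases eq_or_ne k 0 with rfl | hk0
    · refine ⟨fun _ => by rw [hA]; norm_num, fun _ => Exact.annealed_two h hm hB h1 hα ?_⟩
      rw [he]; norm_num
    have h23 : √(2/3 : ℝ) ^ 2 = 2/3 := Real.sq_sqrt (by norm_num)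
    have hs : 0 < √(2/3 : ℝ) := by positivity
    have hne : Exact.tau (Exact.bump k) - 1 ≠ 0 := by
      rw [hθ]; exact div_ne_zero (neg_ne_zero.2 (mul_ne_zero hk0 hs.ne')) (by positivity)
    have hθ2 : (Exact.tau (Exact.bump k) - 1) ^ 2 = 2 * k ^ 2 / (27 * (1 + k * √(2/3)) ^ 2) := by
      rw [hθ, div_pow, neg_sq, mul_pow, mul_pow, h23]; field_simp; ring
    have hr : (1/12 : ℝ) ≤ r := by rcases h with ⟨-, rfl⟩ | ⟨-, rfl⟩ <;> norm_num
    have hsq : √(1/2 : ℝ) ≤ 0.7072 := by rw [Real.sqrt_le_left] <;> norm_num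
    rw [Exact.annealed_iff h hm hB h1 h3 hne ?_ hα, hθ2, hA, mul_div_assoc', div_le_one (by positivity)]
    · constructor <;> intro hh <;> linarith
    · rw [he, hθ2]
      have t1 := mul_le_mul_of_nonneg_right hr (show 0 ≤ 2 * k ^ 2 / (27 * (1 + k * √(2/3)) ^ 2) by positivity)
      have t2 := mul_le_mul_of_nonneg_right hsq (show 0 ≤ k ^ 2 / (1 + k * √(2/3)) ^ 2 by positivity)
      have t3 : 0 ≤ k ^ 2 / (1 + k * √(2/3)) ^ 2 := by positivity
      simp only [div_eq_mul_inv, mul_inv] at *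
      linarith

end Vale.Agent.Results.P157.ExactThreshold
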