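import Vale.Agent.P157.Full.Main
import Vale.Agent.P157.Sph.Main

open MeasureTheory ProbabilityTheory Real Filter
open scoped Topology

namespace Vale.Agent.Results.P157.FullFormula
open Vale.Agent.P157

theorem result :
    ∀ f : ℝ → ℝ, Measurable f → (∃ B, ∀ x, |f x| ≤ B) → ∀ α : ℝ, 0 < α →
      ((Full.hopfValues (fun y => Real.exp (f y)) α).Nonempty ∧
        BddBelow (Full.hopfValues (fun y => Real.exp (f y)) α) ∧
        Tendsto (fun N : ℕ => pressure (isingUniform N) f ⌊α * N⌋₊) atTop
          (𝓝 (sInf (Full.hopfValues (fun y => Real.exp (f y)) α)))) ∧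
      ((Sph.sphereValues (fun y => Real.exp (f y)) α).Nonempty ∧
        BddBelow (Sph.sphereValues (fun y => Real.exp (f y)) α) ∧
        Tendsto (fun N : ℕ => pressure (sphereUniform N) f ⌊α * N⌋₊) atTop
          (𝓝 (sInf (Sph.sphereValues (fun y => Real.exp (f y)) α)))) :=
  fun _ hf ⟨_, hB⟩ _ hα => ⟨Full.hopf_limit hf hB hα, Sph.sphere_limit hf hB hα⟩

end Vale.Agent.Results.P157.FullFormula
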