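import Vale.Agent.P157.RS.Limit
import Vale.Agent.P157.RS.Sph.Limit

open MeasureTheory ProbabilityTheory Real Filter
open scoped Topology

namespace Vale.Agent.Results.P157.ReplicaSymmetric
open Vale.Agent.P157

/-- `E_ξ exp f(v + √(1-q) ξ)` -/
noncomputable def W0 (f : ℝ → ℝ) (q v : ℝ) : ℝ :=
  ∫ ξ, exp (f (v + √(1 - q) * ξ)) ∂gaussianReal 0 1

/-- `E_ξ (f' exp f)(v + √(1-q) ξ)` -/
noncomputable def W1 (f : ℝ → ℝ) (q v : ℝ) : ℝ :=
  ∫ ξ, exp (f (v + √(1 - q) * ξ)) * deriv f (v + √(1 - q) * ξ) ∂gaussianReal 0 1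

/-- the conjugate order parameter per pattern -/
noncomputable def Γ (f : ℝ → ℝ) (q : ℝ) : ℝ :=
  ∫ y, (W1 f q (√q * y) / W0 f q (√q * y)) ^ 2 ∂gaussianReal 0 1

/-- Gardner's saddle-point equation -/
def IsSaddle (f : ℝ → ℝ) (α q : ℝ) : Prop :=
  q = ∫ z, tanh (√(α * Γ f q) * z) ^ 2 ∂gaussianReal 0 1

/-- Gardner's replica-symmetric free energy -/
noncomputable def rsValue (f : ℝ → ℝ) (α q : ℝ) : ℝ :=
  α * (∫ y, log (W0 f q (√q * y)) ∂gaussianReal 0 1)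
    + (∫ z, log (cosh (√(α * Γ f q) * z)) ∂gaussianReal 0 1) - α * Γ f q * (1 - q) / 2

/-- Gardner's saddle-point equation on the sphere -/
def IsSphereSaddle (f : ℝ → ℝ) (α q : ℝ) : Prop :=
  0 ≤ q ∧ q < 1 ∧ q = α * Γ f q * (1 - q) ^ 2

/-- Gardner's replica-symmetric free energy on the sphere -/
noncomputable def rsSphereValue (f : ℝ → ℝ) (α q : ℝ) : ℝ :=
  α * (∫ y, log (W0 f q (√q * y)) ∂gaussianReal 0 1) + q / (2 * (1 - q)) + 1 / 2 * log (1 - q)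

lemma hasDeriv_iter {f : ℝ → ℝ} (hf : ContDiff ℝ 3 f) {k : ℕ} (hk : k < 3) (x : ℝ) :
    HasDerivAt (iteratedDeriv k f) (iteratedDeriv (k + 1) f x) x := by
  rw [iteratedDeriv_succ]
  exact ((hf.differentiable_iteratedDeriv k (by exact_mod_cast hk)) x).hasDerivAt

/-- both formulas at a given density and potential -/
def RSFormula (f : ℝ → ℝ) (α : ℝ) : Prop :=
  ((∃ q, IsSaddle f α q) ∧ ∀ q, IsSaddle f α q →
      Tendsto (fun N : ℕ => pressure (isingUniform N) f ⌊α * N⌋₊) atTop (𝓝 (rsValue f α q))) ∧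
  ((∃ q, IsSphereSaddle f α q) ∧ ∀ q, IsSphereSaddle f α q →
      Tendsto (fun N : ℕ => pressure (sphereUniform N) f ⌊α * N⌋₊) atTop (𝓝 (rsSphereValue f α q)))

lemma main {f : ℝ → ℝ} {α B D L : ℝ} (hf : ContDiff ℝ 3 f) (h0 : ∀ x, |f x| ≤ B) (h1 : ∀ x, |deriv f x| ≤ D)
    (h2 : ∀ x, |iteratedDeriv 2 f x| ≤ D) (h3 : ∀ x, |iteratedDeriv 3 f x| ≤ L) (hα : 0 < α) :
    (α * (D ^ 2 + D) ^ 2 * exp (8 * B) ≤ 1 / 32768 → (∃ q, IsSaddle f α q) ∧ ∀ q, IsSaddle f α q →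
      Tendsto (fun N : ℕ => pressure (isingUniform N) f ⌊α * N⌋₊) atTop (𝓝 (rsValue f α q))) ∧
    (α * (D ^ 2 + D) ^ 2 * exp (8 * B) ≤ 1 / 131072 → RSFormula f α) := by
  set f2 := iteratedDeriv 2 f
  set f3 := iteratedDeriv 3 f
  have hS : RS.Smooth f (deriv f) f2 f3 B D L :=
    { d0 := fun x => ((hf.differentiable (by norm_num)) x).hasDerivAt
      d1 := fun x => by have := hasDeriv_iter hf (k := 1) (by norm_num) x; rwa [iteratedDeriv_one] at this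
      d2 := hasDeriv_iter hf (k := 2) (by norm_num)
      cont3 := hf.continuous_iteratedDeriv 3 le_rfl
      b0 := h0
      b1 := h1
      b2 := h2
      b3 := h3 }
  have e0 : ∀ q v, RS.sm (RS.ee f (deriv f) f2 f3 0) (1 - q) 0 v = W0 f q v := fun q v => by
    simp [RS.sm, W0, RS.ee]
  have eG : ∀ q, RS.Gam f (deriv f) f2 f3 q = Γ f q := fun q => by
    simp [RS.Gam, Γ, RS.sm, W0, W1, RS.ee]
  have eq : ∀ q, IsSaddle f α q ↔ q = RS.qfun (α * RS.Gam f (deriv f) f2 f3 q) := fun q => by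
    rw [eG]; rfl
  have ising : α * (D ^ 2 + D) ^ 2 * exp (8 * B) ≤ 1 / 32768 → (∃ q, IsSaddle f α q) ∧ ∀ q, IsSaddle f α q →
      Tendsto (fun N : ℕ => pressure (isingUniform N) f ⌊α * N⌋₊) atTop (𝓝 (rsValue f α q)) := by
    intro hsmall
    have hK : α * RS.rate D B ≤ 1 / 32 := by
      rw [RS.rate, show D * D = D ^ 2 by ring]
      linarith
    refine ⟨(RS.exists_fixed hS α).imp fun q h => (eq q).2 h, fun q h => ?_⟩
    refine (show rsValue f α q = α * RS.incr f (deriv f) f2 f3 q + RS.siteFree (α * RS.Gam f (deriv f) f2 f3 q) from ?_)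
      ▸ RS.rs_limit hS hα hK ((eq q).1 h)
    simp only [rsValue, RS.incr, RS.siteFree, e0, eG]
    ring
  refine ⟨ising, fun hsmall => ⟨ising (hsmall.trans (by norm_num)), ?_⟩⟩
  have hK : α * RS.rate D B ≤ 1 / 128 := by
    rw [RS.rate, show D * D = D ^ 2 by ring]
    linarith
  obtain ⟨q, hq01, hq⟩ := RS.Sph.exists_fixed hS hα.le
  refine ⟨⟨q, hq01.1, hq01.2, by rw [← eG]; exact hq⟩, fun q ⟨h0, h1, hq⟩ => ?_⟩
  refine (show rsSphereValue f α q = α * RS.incr f (deriv f) f2 f3 q + RS.Sph.sphPhi q from ?_)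
    ▸ RS.Sph.rs_limit hS hα hK ⟨h0, h1⟩ (by rw [eG]; exact hq)
  simp only [rsSphereValue, RS.incr, RS.Sph.sphPhi, e0, eG]
  have hne : 1 - q ≠ 0 := by linarith
  have e : α * Γ f q * (1 - q) = q / (1 - q) := by
    rw [eq_div_iff hne]; linear_combination -hq
  have e2 : q / (2 * (1 - q)) = q / (1 - q) / 2 := by rw [div_div, mul_comm]
  rw [e2, mul_sub, show α * (Γ f q * (1 - q) / 2) = α * Γ f q * (1 - q) / 2 by ring, e]
  ring

theorem result :
    (∀ (f : ℝ → ℝ) (α B D : ℝ), ContDiff ℝ 3 f → (∀ x, |f x| ≤ B) → (∀ x, |deriv f x| ≤ D) →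
      (∀ x, |iteratedDeriv 2 f x| ≤ D) → (∃ L, ∀ x, |iteratedDeriv 3 f x| ≤ L) → 0 < α →
      α * (D ^ 2 + D) ^ 2 * exp (8 * B) ≤ 1 / 32768 →
      ((∃ q, IsSaddle f α q) ∧ ∀ q, IsSaddle f α q →
        Tendsto (fun N : ℕ => pressure (isingUniform N) f ⌊α * N⌋₊) atTop (𝓝 (rsValue f α q))) ∧
      (α * (D ^ 2 + D) ^ 2 * exp (8 * B) ≤ 1 / 131072 →
        (∃ q, IsSphereSaddle f α q) ∧ ∀ q, IsSphereSaddle f α q →
          Tendsto (fun N : ℕ => pressure (sphereUniform N) f ⌊α * N⌋₊) atTop (𝓝 (rsSphereValue f α q)))) ∧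
    ∀ h : ℝ → ℝ, ContDiff ℝ 3 h → (∀ k ≤ 3, ∃ B, ∀ x, |iteratedDeriv k h x| ≤ B) → ∀ α : ℝ, 0 < α →
      ∃ ε₀ : ℝ, 0 < ε₀ ∧ ∀ ε : ℝ, |ε| ≤ ε₀ →
        RSFormula (fun x => ε * h x) α := by
  refine ⟨fun f α B D hf h0 h1 h2 ⟨L, h3⟩ hα hs => ⟨(main hf h0 h1 h2 h3 hα).1 hs,
    fun hs' => ((main hf h0 h1 h2 h3 hα).2 hs').2⟩, fun h hh hb α hα => ?_⟩
  obtain ⟨B0, hB0⟩ := hb 0 (by norm_num)
  obtain ⟨B1, hB1⟩ := hb 1 (by norm_num)
  obtain ⟨B2, hB2⟩ := hb 2 (by norm_num)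
  obtain ⟨B3, hB3⟩ := hb 3 le_rfl
  set C := max (max (max B0 B1) (max B2 B3)) 1
  have hC : 1 ≤ C := le_max_right _ _
  have hk : ∀ k ≤ 3, ∀ x, |iteratedDeriv k h x| ≤ C := by
    intro k hk x
    refine le_trans ?_ (le_max_left _ _)
    interval_cases k
    · exact (hB0 x).trans ((le_max_left _ _).trans (le_max_left _ _))
    · exact (hB1 x).trans ((le_max_right _ _).trans (le_max_left _ _))
    · exact (hB2 x).trans ((le_max_left _ _).trans (le_max_right _ _))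
    · exact (hB3 x).trans ((le_max_right _ _).trans (le_max_right _ _))
  refine ⟨min (1 / C) (1 / (131072 * 4 * α * C * exp 8)), lt_min (by positivity) (by positivity), fun ε hε => ?_⟩
  set D := |ε| * C with hD
  have e1 : D ≤ 1 := by
    have := mul_le_mul_of_nonneg_right (hε.trans (min_le_left _ _)) (zero_le_one.trans hC)
    rwa [one_div_mul_cancel (by positivity)] at this
  have e2 : α * 4 * D * exp 8 ≤ 1 / 131072 := by
    have := mul_le_mul_of_nonneg_right (hε.trans (min_le_right _ _)) (show 0 ≤ α * 4 * C * exp 8 by positivity)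
    rw [show 1 / (131072 * 4 * α * C * exp 8) * (α * 4 * C * exp 8) = 1 / 131072 by field_simp] at this
    rw [hD]; linarith
  have hiter : ∀ k ≤ 3, ∀ x, |iteratedDeriv k (fun x => ε * h x) x| ≤ D := by
    intro k hk3 x
    rw [iteratedDeriv_const_mul_field, abs_mul]
    exact mul_le_mul_of_nonneg_left (hk k hk3 x) (abs_nonneg ε)
  refine (main (B := D) (D := D) (L := D) (contDiff_const.mul hh) (fun x => by simpa using hiter 0 (by norm_num) x)
    (fun x => by simpa [iteratedDeriv_one] using hiter 1 (by norm_num) x) (hiter 2 (by norm_num)) (hiter 3 le_rfl)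
    hα).2 (le_trans ?_ e2)
  have D0 : 0 ≤ D := mul_nonneg (abs_nonneg _) (zero_le_one.trans hC)
  calc α * (D ^ 2 + D) ^ 2 * exp (8 * D) ≤ α * (4 * D) * exp 8 := by
        gcongr
        · have h2D : D ^ 2 + D ≤ 2 * D := by nlinarith
          have hDD : D ^ 2 ≤ D := by nlinarith
          exact (pow_le_pow_left₀ (by positivity) h2D 2).trans (by linarith)
        · linarith
    _ = _ := by ring

end Vale.Agent.Results.P157.ReplicaSymmetric
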